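import Vale.Agent.P251EJ.Defs

/-!
# P251EJ, block HS: the telescope data

`TD B H lam` : a telescope `G` of finite free graded `B`-modules, with `π_{2*} G = A` as modules.
-/

open CategoryTheory MonoidalCategory MonObj Limits Pretriangulated

set_option linter.unusedSectionVars false

universe u

noncomputable section

namespace Vale.Agent.P251EJ80

open Vale.Agent.P251 Vale.Agent.P251.S Vale.Agent.P251.T Vale.Agent.P251.M EvenSpheres
  Vale.Agent.P093.Nak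

variable {𝒯 : Type u} [Category.{0} 𝒯] [Preadditive 𝒯] [HasZeroObject 𝒯]
    [HasShift 𝒯 ℤ] [∀ n : ℤ, (shiftFunctor 𝒯 n).Additive] [Pretriangulated 𝒯] [IsTriangulated 𝒯]
    [MonoidalCategory 𝒯] [SymmetricCategory 𝒯] [TensorTriangulated 𝒯] [MonoidalClosed 𝒯]
    [HasCoproducts.{0} 𝒯] [HasProducts.{0} 𝒯] [StableCat 𝒯]

/-- A telescope of finite free graded `B`-modules whose homotopy is the module `A`. -/
structure TD (B : 𝒯) [MonObj B] {A : Type} [CommRing A] (H : ℤ → AddSubgroup A)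
    (lam : HRing (stdEven 𝒯) B →+* A) where
  I : ℕ → Type
  [fin : ∀ i, Fintype (I i)]
  deg : ∀ i, I i → ℤ
  F : ℕ ⥤ 𝒯
  m : ∀ i, ModStr B (F.obj i)
  w : ∀ i (a : I i), (stdEven 𝒯).S (deg i a) ⟶ F.obj i
  free : ∀ i, IsIso (lin (m i) (Sigma.desc (w i)))
  lin_t : ∀ i, (m i).IsLinear (m (i + 1)) (F.map (homOfLE (Nat.le_succ i)))
  G : 𝒯
  io : ∀ i, F.obj i ⟶ G
  tel : IsTel F G io
  mG : ModStr B G
  lin_io : ∀ i, (m i).IsLinear mG (io i)
  odd : OddZero G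
  ψ : A →+ HMod (stdEven 𝒯) G
  bij : Function.Bijective ψ
  ψ_mem : ∀ d, ∀ a ∈ H d, ∃ x : (stdEven 𝒯).S d ⟶ G, ψ a = HRing.of (stdEven 𝒯) G d x
  ψ_lam : ∀ (k d n : ℤ) (h : k + d = n) (c : (stdEven 𝒯).S k ⟶ B) (a : A)
    (x : (stdEven 𝒯).S d ⟶ G), ψ a = HRing.of (stdEven 𝒯) G d x →
      ψ (lam (HRing.of (stdEven 𝒯) B k c) * a) = HRing.of (stdEven 𝒯) G n (gsmul mG h c x)

attribute [instance] TD.fin

variable (𝒯) in
/-- first half of HS: the telescope -/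
def HS1 : Prop :=
  ∀ (B : 𝒯) [MonObj B] [IsCommMonObj B] (J : Type) (_ : RBasis (stdEven 𝒯) B B J) (A : Type)
    [CommRing A] (H : ℤ → AddSubgroup A) [GradedRing H] (lam : HRing (stdEven 𝒯) B →+* A),
    OddZero B → (∀ d c, P257.H80.IsHomog B d c → lam c ∈ H d) →
      P251EJ.Pres (P257.H80.IsHomog B) H lam → Nonempty (TD B H lam)

variable (𝒯) in
/-- second half of HS: the product and the universal property -/
def HS2 : Prop :=
  ∀ (B : 𝒯) [MonObj B] [IsCommMonObj B] (J : Type) (_ : RBasis (stdEven 𝒯) B B J) (A : Type)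
    [CommRing A] (H : ℤ → AddSubgroup A) [GradedRing H] (lam : HRing (stdEven 𝒯) B →+* A),
    TD B H lam → Nonempty (P251EJ.GD B H lam)

theorem hs_of (h1 : HS1 𝒯) (h2 : HS2 𝒯) : P251EJ.HS 𝒯 := fun B _ _ J rb A _ H _ lam ho hl P => by
  obtain ⟨X⟩ := h1 B J rb A H lam ho hl P
  exact h2 B J rb A H lam X

end Vale.Agent.P251EJ80
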