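import Vale.Agent.P251EJ80.TD
import Vale.Agent.P251.S.ModTens
import Vale.Agent.P251.M.PS

/-!
# P251EJ, block HS: semilinear maps

* `SL g M M' f` : `f` is semilinear over `g`;
* `Gen M u` : the module `M` is generated by `u`; semilinear maps are determined on `u`.
-/

open CategoryTheory MonoidalCategory MonObj Limits

set_option linter.unusedSectionVars false

universe v u

noncomputable section

namespace Vale.Agent.P251EJ80

open Vale.Agent.P251 Vale.Agent.P251.S Vale.Agent.P251.M EvenSpheres Vale.Agent.P093.Nak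

variable {T : Type u} [Category.{v} T] [MonoidalCategory T] [SymmetricCategory T]
  {R R' R'' P P' : T} [MonObj R] [MonObj R'] [MonObj R''] [MonObj P] [MonObj P']
  {N N' N'' L L' : T}

/-- `f` is semilinear over `g` -/
def SL (g : R ⟶ R') (M : ModStr R N) (M' : ModStr R' N') (f : N ⟶ N') : Prop :=
  M.act ≫ f = (g ⊗ₘ f) ≫ M'.act

theorem tmu_braid (X₁ X₂ Y₁ Y₂ : T) :
    tensorμ X₁ X₂ Y₁ Y₂ ≫ (β_ (X₁ ⊗ Y₁) (X₂ ⊗ Y₂)).hom =
      ((β_ X₁ X₂).hom ⊗ₘ (β_ Y₁ Y₂).hom) ≫ tensorμ X₂ X₁ Y₂ Y₁ := by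
  simp [tensorμ, SymmetricCategory.braiding_swap_eq_inv_braiding Y₁ X₂,
    MonoidalCategory.tensorHom_def]

@[reassoc]
theorem tmu_tmu (X₁ X₂ Y₁ Y₂ : T) : tensorμ X₁ X₂ Y₁ Y₂ ≫ tensorμ X₁ Y₁ X₂ Y₂ = 𝟙 _ := by
  have h : tensorμ X₁ Y₁ X₂ Y₂ = tensorδ X₁ X₂ Y₁ Y₂ := by
    simp only [tensorμ, tensorδ, SymmetricCategory.braiding_swap_eq_inv_braiding X₂ Y₁]
  rw [h, tensorμ_tensorδ]

namespace SL

theorem of_lin {M : ModStr R N} {M' : ModStr R N'} {f : N ⟶ N'} (h : M.IsLinear M' f) :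
    SL (𝟙 R) M M' f := by
  unfold SL
  rw [id_tensorHom]
  exact h

theorem lin {M : ModStr R N} {M' : ModStr R N'} {f : N ⟶ N'} (h : SL (𝟙 R) M M' f) :
    M.IsLinear M' f := by
  unfold SL at h
  rw [id_tensorHom] at h
  exact h

theorem id (M : ModStr R N) : SL (𝟙 R) M M (𝟙 N) := of_lin (ModStr.IsLinear.id M)

theorem comp {g : R ⟶ R'} {g' : R' ⟶ R''} {M : ModStr R N} {M' : ModStr R' N'}
    {M'' : ModStr R'' N''} {f : N ⟶ N'} {f' : N' ⟶ N''} (h : SL g M M' f) (h' : SL g' M' M'' f') :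
    SL (g ≫ g') M M'' (f ≫ f') := by
  unfold SL at *
  rw [reassoc_of% h, h', tensorHom_comp_tensorHom_assoc]

theorem congr {g g' : R ⟶ R'} {M : ModStr R N} {M' : ModStr R' N'} {f : N ⟶ N'}
    (h : SL g M M' f) (e : g = g') : SL g' M M' f := e ▸ h

theorem tens {g : R ⟶ P} {g' : R' ⟶ P'} {M : ModStr R N} {M' : ModStr R' N'} {K : ModStr P L}
    {K' : ModStr P' L'} {f : N ⟶ L} {f' : N' ⟶ L'} (h : SL g M K f) (h' : SL g' M' K' f') :
    SL (g ⊗ₘ g') (M.tens M') (K.tens K') (f ⊗ₘ f') := by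
  unfold SL ModStr.tens at *
  dsimp only
  rw [Category.assoc, tensorHom_comp_tensorHom, h, h', ← tensorHom_comp_tensorHom,
    tensorμ_natural_assoc]

theorem assoc (M : ModStr R N) (M' : ModStr R' N') (M'' : ModStr R'' N'') :
    SL (α_ R R' R'').hom ((M.tens M').tens M'') (M.tens (M'.tens M'')) (α_ N N' N'').hom := by
  unfold SL ModStr.tens
  dsimp only
  have h := associator_monoidal R R' R'' N N' N''
  have h1 : (tensorμ R R' N N' ≫ (M.act ⊗ₘ M'.act) ⊗ₘ M''.act) =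
      tensorμ R R' N N' ▷ (R'' ⊗ N'') ≫ ((M.act ⊗ₘ M'.act) ⊗ₘ M''.act) := by
    rw [← tensorHom_id, tensorHom_comp_tensorHom, Category.id_comp]
  have h2 : (M.act ⊗ₘ tensorμ R' R'' N' N'' ≫ (M'.act ⊗ₘ M''.act)) =
      (R ⊗ N) ◁ tensorμ R' R'' N' N'' ≫ (M.act ⊗ₘ (M'.act ⊗ₘ M''.act)) := by
    rw [← id_tensorHom, tensorHom_comp_tensorHom, Category.id_comp]
  rw [h1, h2, Category.assoc, Category.assoc, associator_naturality, reassoc_of% h]

theorem braid (M : ModStr R N) (M' : ModStr R' N') :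
    SL (β_ R R').hom (M.tens M') (M'.tens M) (β_ N N').hom := by
  unfold SL ModStr.tens
  dsimp only
  rw [Category.assoc, BraidedCategory.braiding_naturality, reassoc_of% (tmu_braid R R' N N')]

theorem lunit (M : ModStr R N) :
    SL (λ_ R).inv M ((ModStr.self (𝟙_ T)).tens M) (λ_ N).inv := by
  unfold SL ModStr.tens ModStr.self
  dsimp only
  have h := leftUnitor_monoidal R N
  have h1 : (μ[𝟙_ T] ⊗ₘ M.act) =
      (λ_ (𝟙_ T)).hom ▷ (R ⊗ N) ≫ (λ_ (R ⊗ N)).hom ≫ M.act ≫ (λ_ N).inv := by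
    rw [← leftUnitor_naturality_assoc, Iso.hom_inv_id, Category.comp_id,
      ← MonoidalCategory.tensorHom_def]
    rfl
  rw [h1, ← reassoc_of% h, tensorHom_comp_tensorHom_assoc, Iso.inv_hom_id, Iso.inv_hom_id,
    id_tensorHom_id, Category.id_comp]

theorem unit (M : ModStr R N) (x : 𝟙_ T ⟶ N) : SL η[R] (ModStr.self (𝟙_ T)) M x := by
  unfold SL ModStr.self
  dsimp only
  rw [tensorHom_def', Category.assoc, M.one_act, leftUnitor_naturality]
  rfl

theorem whiskerRight {g : R ⟶ R'} {M : ModStr R N} {M' : ModStr R' N'} {f : N ⟶ N'}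
    (h : SL g M M' f) (Y : T) : SL g (M.tensorRight Y) (M'.tensorRight Y) (f ▷ Y) := by
  unfold SL ModStr.tensorRight at *
  dsimp only
  rw [Category.assoc, ← comp_whiskerRight, h, comp_whiskerRight, ← tensorHom_id f,
    associator_inv_naturality_assoc, tensorHom_id]

theorem mul (B : T) [MonObj B] [IsCommMonObj B] :
    SL μ[B] ((ModStr.self B).tens (ModStr.self B)) (ModStr.self B) μ[B] := by
  unfold SL ModStr.tens ModStr.self
  dsimp only
  rw [Category.assoc]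
  exact mul_mul_mul_comm (M := B)

/-- the action of a module over a commutative monoid is bilinear -/
theorem act {B : T} [MonObj B] [IsCommMonObj B] (M : ModStr B N) :
    SL μ[B] ((ModStr.self B).tens M) M M.act := by
  unfold SL ModStr.tens ModStr.self
  dsimp only
  have h2 : (B ⊗ B) ◁ M.act ≫ μ[B] ▷ N ≫ M.act =
      (α_ (B ⊗ B) B N).inv ≫ ((μ[B] ▷ B ≫ μ[B]) ▷ N) ≫ M.act := by
    rw [whisker_exchange_assoc, comp_whiskerRight, Category.assoc, M.mul_act,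
      associator_naturality_left_assoc, Iso.inv_hom_id_assoc]
  have h3 : tensorμ B B B N = (α_ (B ⊗ B) B N).inv ≫
      (((α_ B B B).hom ≫ B ◁ (β_ B B).hom ≫ (α_ B B B).inv) ▷ N) ≫ (α_ (B ⊗ B) B N).hom := by
    simp only [tensorμ]
    monoidal
  rw [Category.assoc, tensorHom_def', Category.assoc, h2, h3]
  simp only [Category.assoc, Iso.hom_inv_id_assoc]
  rw [← comp_whiskerRight_assoc]
  simp only [Category.assoc]
  rw [MonObj.mul_assoc, Iso.inv_hom_id_assoc, ← MonoidalCategory.whiskerLeft_comp_assoc,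
    IsCommMonObj.mul_comm]

theorem gsmul {E : EvenSpheres T} {g : R ⟶ R'} {M : ModStr R N} {M' : ModStr R' N'} {f : N ⟶ N'}
    (h : SL g M M' f) {m n p : ℤ} (e : m + n = p) (a : E.S m ⟶ R) (x : E.S n ⟶ N) :
    EvenSpheres.gsmul M e a x ≫ f = EvenSpheres.gsmul M' e (a ≫ g) (x ≫ f) := by
  unfold EvenSpheres.gsmul
  rw [Category.assoc, h, ext_comp, Category.assoc]

end SL

/-- the module `M` is generated by `u` -/
def Gen (M : ModStr R N) {S : T} (u : S ⟶ N) : Prop := ∃ j : N ⟶ R ⊗ S, j ≫ lin M u = 𝟙 N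

theorem Gen.of_isIso (M : ModStr R N) {S : T} (u : S ⟶ N) [IsIso (lin M u)] : Gen M u :=
  ⟨inv (lin M u), IsIso.inv_hom_id _⟩

theorem SL.lin_comp {g : R ⟶ R'} {M : ModStr R N} {M' : ModStr R' N'} {f : N ⟶ N'}
    (h : SL g M M' f) {S : T} (u : S ⟶ N) :
    P093.Nak.lin M u ≫ f = (g ⊗ₘ (u ≫ f)) ≫ M'.act := by
  unfold P093.Nak.lin
  rw [Category.assoc, h, ← id_tensorHom, tensorHom_comp_tensorHom_assoc, Category.id_comp]

theorem Gen.ext {M : ModStr R N} {S : T} {u : S ⟶ N} (h : Gen M u) {g : R ⟶ R'}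
    {M' : ModStr R' N'} {f f' : N ⟶ N'} (hf : SL g M M' f) (hf' : SL g M M' f')
    (e : u ≫ f = u ≫ f') : f = f' := by
  obtain ⟨j, hj⟩ := h
  rw [← Category.id_comp f, ← Category.id_comp f', ← hj, Category.assoc, Category.assoc,
    hf.lin_comp, hf'.lin_comp, e]

theorem lin_tens (M : ModStr R N) (M' : ModStr R' N') {S S' : T} (u : S ⟶ N) (u' : S' ⟶ N') :
    lin (M.tens M') (u ⊗ₘ u') = tensorμ R R' S S' ≫ (lin M u ⊗ₘ lin M' u') := by
  unfold lin ModStr.tens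
  dsimp only
  rw [tensorμ_natural_right_assoc, tensorHom_comp_tensorHom]

theorem Gen.tens {M : ModStr R N} {M' : ModStr R' N'} {S S' : T} {u : S ⟶ N} {u' : S' ⟶ N'}
    (h : Gen M u) (h' : Gen M' u') : Gen (M.tens M') (u ⊗ₘ u') := by
  obtain ⟨j, hj⟩ := h
  obtain ⟨j', hj'⟩ := h'
  refine ⟨(j ⊗ₘ j') ≫ tensorμ R S R' S', ?_⟩
  rw [lin_tens, Category.assoc, tmu_tmu_assoc, tensorHom_comp_tensorHom, hj, hj', id_tensorHom_id]

theorem Gen.self (R : T) [MonObj R] : Gen (ModStr.self R) η[R] :=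
  ⟨(ρ_ R).inv, by
    unfold lin ModStr.self
    dsimp only
    rw [MonObj.mul_one, Iso.inv_hom_id]⟩

/-- products of scalar multiples -/
theorem ext_gsmul {E : EvenSpheres T} (M : ModStr R N) (M' : ModStr R' N') {k d n k' d' n' a b c : ℤ}
    (h : k + d = n) (h' : k' + d' = n') (ha : k + k' = a) (hb : d + d' = b) (hc : n + n' = c)
    (hab : a + b = c) (r : E.S k ⟶ R) (x : E.S d ⟶ N) (r' : E.S k' ⟶ R') (x' : E.S d' ⟶ N') :
    E.ext hc (gsmul M h r x) (gsmul M' h' r' x') =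
      gsmul (M.tens M') hab (E.ext ha r r') (E.ext hb x x') := by
  unfold gsmul ModStr.tens
  dsimp only
  rw [ext_comp, reassoc_of% (E.ext_tensorμ ha hb hab h h' hc r r' x x')]

end Vale.Agent.P251EJ80
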